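import Mathlib
import Vale.Agent.P262.Params2
import Vale.Agent.P262.Final2

namespace Vale.Agent.Results.P262.SteinitzLog

open Finset

/-- Euclidean Steinitz constant up to one logarithm: `S_2(d) ≤ C √d (1 + log d)`. Every zero-sum
family of `N` vectors (any `N`) of the Euclidean unit ball of `ℝ^d` can be ordered so that all its
partial sums have norm at most `C √d (1 + log d)`. -/
theorem result : ∃ C : ℝ, 0 < C ∧ ∀ d : ℕ, 1 ≤ d → ∀ (N : ℕ)
    (v : Fin N → EuclideanSpace ℝ (Fin d)), (∀ i, ‖v i‖ ≤ 1) → ∑ i, v i = 0 →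
    ∃ π : Equiv.Perm (Fin N), ∀ k ≤ N,
      ‖∑ i ∈ univ.filter (fun i : Fin N => (i : ℕ) < k), v (π i)‖ ≤
        C * Real.sqrt d * (1 + Real.log d) := by
  refine ⟨120000, by norm_num, fun d hd N v hv h0 => ?_⟩
  obtain ⟨n, P, hP⟩ := Vale.Agent.P262.exists_par2 d
  have hd1 : (1 : ℝ) ≤ d := by exact_mod_cast hd
  have hlogd : 0 ≤ Real.log d := Real.log_nonneg hd1
  have h3 : Real.log 3 ≤ 2 := by
    have := Real.log_le_sub_one_of_pos (x := (3 : ℝ)) (by norm_num)
    linarith
  have hlog : Real.log (d + 2) ≤ 2 + Real.log d := by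
    have h4 : Real.log ((d : ℝ) + 2) ≤ Real.log (3 * d) :=
      Real.log_le_log (by positivity) (by linarith)
    rw [Real.log_mul (by norm_num) (by positivity)] at h4
    linarith
  have h7 : P.R ≤ 120000 * (1 + Real.log d) := by linarith
  rcases le_or_gt 0 P.R with hR0 | hR0
  · obtain ⟨π, hπ⟩ := Vale.Agent.P262.final2 P hR0 v hv h0
    refine ⟨π, fun k hk => (hπ k hk).trans ?_⟩
    calc Real.sqrt d * P.R ≤ Real.sqrt d * (120000 * (1 + Real.log d)) :=
          mul_le_mul_of_nonneg_left h7 (Real.sqrt_nonneg _)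
      _ = _ := by ring
  · exfalso
    have h8 := Vale.Agent.P262.diag_main2 (ι := Fin 0) (v := fun _ _ => 0) P
      (fun i => i.elim0) (fun k => by simp) (fun k l _ => by simp)
    obtain ⟨l, -, -, h9⟩ := h8
    have := h9 0 ⟨0, hd⟩
    have h10 := abs_nonneg ((0 : ℝ) + ((List.take 0 l).map (fun i : Fin 0 => (0 : ℝ))).sum)
    linarith

end Vale.Agent.Results.P262.SteinitzLog
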