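import Mathlib
import Vale.Agent.P262.Params
import Vale.Agent.P262.Final

namespace Vale.Agent.Results.P262.SteinitzPolylog

open Finset

/-- Euclidean Steinitz constant up to logarithms: `S_2(d) ≤ C √d (1 + log d)^3`. Every zero-sum
family of `N` vectors (any `N`) of the Euclidean unit ball of `ℝ^d` can be ordered so that all its
partial sums have norm at most `C √d (1 + log d)^3`. -/
theorem result : ∃ C : ℝ, 0 < C ∧ ∀ d : ℕ, 1 ≤ d → ∀ (N : ℕ)
    (v : Fin N → EuclideanSpace ℝ (Fin d)), (∀ i, ‖v i‖ ≤ 1) → ∑ i, v i = 0 →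
    ∃ π : Equiv.Perm (Fin N), ∀ k ≤ N,
      ‖∑ i ∈ univ.filter (fun i : Fin N => (i : ℕ) < k), v (π i)‖ ≤
        C * Real.sqrt d * (1 + Real.log d) ^ 3 := by
  refine ⟨2000000, by norm_num, fun d hd N v hv h0 => ?_⟩
  obtain ⟨P, hP⟩ := Vale.Agent.P262.exists_par d
  obtain ⟨π, hπ⟩ := Vale.Agent.P262.final P v hv h0
  refine ⟨π, fun k hk => (hπ k hk).trans ?_⟩
  have hd1 : (1 : ℝ) ≤ d := by exact_mod_cast hd
  have hlogd : 0 ≤ Real.log d := Real.log_nonneg hd1
  have h3 : Real.log 3 ≤ 1.11 := by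
    have h4 : Real.log 3 ≤ Real.log (2 * 1.5) := by norm_num
    rw [Real.log_mul (by norm_num) (by norm_num)] at h4
    have h5 := Real.log_two_lt_d9
    have h6 : Real.log 1.5 ≤ 0.41 := by
      rw [Real.log_le_iff_le_exp (by norm_num)]
      have h7 := Real.sum_le_exp_of_nonneg (x := 0.41) (by norm_num) 4
      norm_num [Finset.sum_range_succ, Nat.factorial] at h7
      norm_num
      linarith
    linarith
  have hlog : Real.log (d + 2) ≤ 1.11 + Real.log d := by
    have h4 : Real.log ((d : ℝ) + 2) ≤ Real.log (3 * d) :=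
      Real.log_le_log (by positivity) (by linarith)
    rw [Real.log_mul (by norm_num) (by positivity)] at h4
    linarith
  have hlog0 : 0 ≤ Real.log ((d : ℝ) + 2) := Real.log_nonneg (by linarith)
  have h5 : (1 + Real.log ((d : ℝ) + 2)) ^ 3 ≤ (2.11 * (1 + Real.log d)) ^ 3 :=
    pow_le_pow_left₀ (by linarith) (by linarith) 3
  have h6 : (2.11 * (1 + Real.log d)) ^ 3 = 9.393931 * (1 + Real.log d) ^ 3 := by ring
  rw [h6] at h5
  have h7 : P.R ≤ 2000000 * (1 + Real.log d) ^ 3 := by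
    have : 0 ≤ (1 + Real.log d) ^ 3 := by positivity
    linarith
  calc Real.sqrt d * P.R ≤ Real.sqrt d * (2000000 * (1 + Real.log d) ^ 3) :=
        mul_le_mul_of_nonneg_left h7 (Real.sqrt_nonneg _)
    _ = _ := by ring

end Vale.Agent.Results.P262.SteinitzPolylog
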